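import Vale.Agent.P093.HB.H6

open Vale.Agent.P093 Filter TopologicalSpace
open scoped ENNReal

namespace Vale.Agent.Results.P093.Attained

theorem result :
    ∀ (X : Type*) [TopologicalSpace X] [CompactSpace X] [MetrizableSpace X] [Infinite X]
      (h : X ≃ₜ X), IsMinimalHomeo h →
      (∀ (A : Type*) [CStarAlgebra A] [PartialOrder A] [StarOrderedRing A], IsCrossedProduct h A →
        (HomDetected h → meanDim h / 2 ≤ radiusOfComparison A) ∧
        (∀ (U : Set (Set X)) (κ : ℕ), IsFinOpenCover U →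
          2 * κ * homRate h U ≤ radiusOfComparison A + κ * (4 * κ + 1) / (2 * κ + 1) * coverRate h U)) ∧
      (meanDim h ≠ ∞ → ((∃ U, IsFinOpenCover U ∧ coverRate h U = meanDim h) →
        homMeanDim h = meanDim h) ∧ (homMeanDim h = meanDim h → HomDetected h)) ∧
      (∀ W : Set (Set X), IsFinOpenCover W → homOrder W ≤ coverDim W ∧ coverRate h W ≠ ∞ ∧
        ∀ (B : Set X) (n : ℕ), NerveClass W B n → n ≤ homOrder W) ∧
      (∀ (q : ℕ) (f : X → Fin q → unitInterval) (N : ℕ → ℕ) (J : ℕ → Finset (ℕ × Fin q))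
        (Ψ : ℕ → (ℕ → Fin q → unitInterval) → X), Continuous f → Tendsto N atTop atTop →
        (∀ k, Continuous (Ψ k)) →
        (∀ k, ∀ p ∈ J k, p.1 < N k ∧ ∀ y, f ((h ^ p.1) (Ψ k y)) p.2 = y p.1 p.2) →
        limsup (fun k => ((J k).card : ℝ≥0∞) / N k) atTop ≤ homMeanDim h) :=
  T.assembledT

end Vale.Agent.Results.P093.Attained
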